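import Vale.Agent.P039.Bz.Stmt
import Vale.Agent.P039.H545.Four
import Vale.Agent.P039.H788.Det

/-! `AbsStmt` (STEPS 3 and 4) from 545's `four` and 788's `step3`. -/

namespace Vale.Agent.P039.H746

open Finset Vale.Agent.P039.Bz

variable {B V : Type} {F : B → Fin 3 → Option V} {f g : B → Fin 3}

theorem mat_of (h : Mat F f) : H545.Mat F f := by
  obtain ⟨φ, hφ⟩ := h
  refine ⟨fun b => by rw [hφ]; exact Option.some_ne_none _, fun b b' e => ?_⟩
  rw [hφ, hφ] at e
  exact φ.injective (Option.some.inj e)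

theorem mat_to [Fintype B] [Fintype V] (hc : Fintype.card B = Fintype.card V)
    (h : H545.Mat F f) : Mat F f := by
  have h1 : ∀ b, ∃ v, F b (f b) = some v := fun b => Option.ne_none_iff_exists'.1 (h.1 b)
  choose p hp using h1
  have hinj : Function.Injective p := fun b b' e => h.2 b b' (by rw [hp, hp, e])
  have hbij : Function.Bijective p :=
    (Fintype.bijective_iff_injective_and_card p).2 ⟨hinj, hc⟩
  exact ⟨Equiv.ofBijective p hbij, hp⟩

section cyc

variable [DecidableEq B] [Fintype B] {φ ψ : B ≃ V}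

theorem inv_iff (hφ : ∀ b, F b (f b) = some (φ b)) (hψ : ∀ b, F b (g b) = some (ψ b))
    (T : Finset B) : H545.Inv F f g T ↔ ∀ b, b ∈ T ↔ (φ.trans ψ.symm) b ∈ T := by
  constructor
  · intro h b
    refine h b _ ?_
    rw [hφ, hψ]
    simp
  · intro h b b' e
    rw [hφ, hψ] at e
    have e' := Option.some.inj e
    rw [h b]
    have : (φ.trans ψ.symm) b = b' := by simp [e']
    rw [this]

/-- A minimal invariant set is a cycle. -/
theorem minInv_cycle (hφ : ∀ b, F b (f b) = some (φ b)) (hψ : ∀ b, F b (g b) = some (ψ b))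
    {C : Finset B} (h : H545.MinInv F f g C) :
    ∃ b₁, ∀ b, b ∈ C ↔ Equiv.Perm.SameCycle (φ.trans ψ.symm) b₁ b := by
  classical
  obtain ⟨⟨b₁, hb₁⟩, hinv, hmin⟩ := h
  have hinv' := (inv_iff hφ hψ C).1 hinv
  set σ : Equiv.Perm B := φ.trans ψ.symm with hσ
  have hz : ∀ b, b ∈ C → ∀ n : ℤ, (σ ^ n) b ∈ C := by
    intro b hb n
    induction n using Int.induction_on with
    | zero => simpa using hb
    | succ n ih =>
      rw [add_comm, zpow_add, zpow_one, Equiv.Perm.mul_apply]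
      exact (hinv' _).1 ih
    | pred n ih =>
      rw [hinv' ((σ ^ (-(n : ℤ) - 1)) b), ← Equiv.Perm.mul_apply]
      have : σ * σ ^ (-(n : ℤ) - 1) = σ ^ (-(n : ℤ)) := by
        rw [← zpow_one_add]; congr 1; ring
      rw [this]
      exact ih
  refine ⟨b₁, fun b => ⟨fun hb => ?_, ?_⟩⟩
  · have h2 := hmin (univ.filter fun b => Equiv.Perm.SameCycle σ b₁ b) (fun x hx => by
        rw [mem_filter] at hx
        obtain ⟨n, hn⟩ := hx.2
        rw [← hn]
        exact hz b₁ hb₁ n) ⟨b₁, by simp [Equiv.Perm.SameCycle.refl]⟩ ((inv_iff hφ hψ _).2 fun x => by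
        rw [mem_filter, mem_filter]
        simp only [mem_univ, true_and]
        exact (Equiv.Perm.sameCycle_apply_right).symm)
    rw [← h2] at hb
    exact (mem_filter.1 hb).2
  · rintro ⟨n, hn⟩
    rw [← hn]
    exact hz b₁ hb₁ n

theorem support_cycle {σ c : Equiv.Perm B} (hc : c ∈ Equiv.Perm.cycleFactorsFinset σ) :
    ∃ b₁, ∀ b, b ∈ c.support ↔ Equiv.Perm.SameCycle σ b₁ b := by
  obtain ⟨hcyc, _⟩ := Equiv.Perm.mem_cycleFactorsFinset_iff.1 hc
  obtain ⟨b₁, hb₁⟩ := hcyc.nonempty_support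
  have h1 : c = σ.cycleOf b₁ := Equiv.Perm.cycle_is_cycleOf hb₁ hc
  refine ⟨b₁, fun b => ?_⟩
  have h2 : b₁ ∈ σ.support := by
    have := Equiv.Perm.mem_cycleFactorsFinset_support_le hc
    exact this hb₁
  rw [h1, Equiv.Perm.mem_support_cycleOf_iff]
  exact ⟨fun h => h.1, fun h => ⟨h, h2⟩⟩

end cyc

theorem eps_eq {a : Fin 3} (h : a ≠ 0) : H545.eps a = eps a := by
  revert h; revert a; decide

theorem eps_eq' (a : Fin 3) : Vale.P039.H788.eps a = eps a := by
  revert a; decide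

open Classical in
theorem sum_eq [Fintype B] [DecidableEq B] [Fintype V] [DecidableEq V]
    (hc : Fintype.card B = Fintype.card V) (f : B → Fin 3) :
    ∑ g ∈ univ.filter (fun g => H545.Mat F g ∧ H545.Disj f g), H545.sg f g =
      ∑ g ∈ univ.filter (Vale.P039.H788.IsMat F), ∏ b, Vale.P039.H788.eps (g b - f b) := by
  refine Finset.sum_subset_zero_on_sdiff ?_ ?_ ?_
  · intro g hg
    rw [mem_filter] at hg ⊢
    exact ⟨mem_univ _, mat_to hc hg.2.1⟩
  · intro g hg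
    rw [mem_sdiff, mem_filter, mem_filter] at hg
    have h1 : H545.Mat F g := mat_of hg.1.2
    have h2 : ¬ H545.Disj f g := fun h => hg.2 ⟨mem_univ _, h1, h⟩
    unfold H545.Disj at h2
    push Not at h2
    obtain ⟨b, hb⟩ := h2
    refine Finset.prod_eq_zero (mem_univ b) ?_
    rw [hb, sub_self, Vale.P039.H788.eps_zero]
  · intro g hg
    rw [mem_filter] at hg
    unfold H545.sg
    refine Finset.prod_congr rfl fun b _ => ?_
    rw [eps_eq', eps_eq]
    exact sub_ne_zero.2 (hg.2.2 b).symm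

/-- **STEPS 3 and 4.** -/
theorem absStmt : AbsStmt := by
  classical
  intro B V _ _ _ _ F cl hcl hcyc hex
  obtain ⟨u, hu⟩ := hcyc
  obtain ⟨f0, g0, hf0, hg0, hd0⟩ := hex
  have hcard : Fintype.card B = Fintype.card V := by
    obtain ⟨φ, _⟩ := hf0
    exact Fintype.card_congr φ
  obtain ⟨f, hf, hsum⟩ := H545.four F u (by
    intro f g hf hg hd C hC
    obtain ⟨φ, hφ⟩ := mat_to hcard hf
    obtain ⟨ψ, hψ⟩ := mat_to hcard hg
    obtain ⟨b₁, hb₁⟩ := minInv_cycle hφ hψ hC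
    obtain ⟨m, hm, hpos⟩ := hu f g φ ψ hφ hψ hd C b₁ hb₁
    refine ⟨⟨m + 1, by rw [hm]; ring⟩, ?_⟩
    have h1 : (C.card + 1) / 2 = m + 2 := by omega
    have h2 : ∏ b ∈ C, H545.eps (g b - f b) = ∏ b ∈ C, eps (g b - f b) :=
      Finset.prod_congr rfl fun b _ => eps_eq (sub_ne_zero.2 (hd b).symm)
    rw [h1, h2, pow_add]
    simpa using hpos) ⟨f0, g0, mat_of hf0, mat_of hg0, hd0⟩
  obtain ⟨φ, hφ⟩ := mat_to hcard hf
  refine ⟨f, ⟨φ, hφ⟩, ?_⟩
  intro K hK
  rw [sum_eq hcard] at hsum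
  obtain ⟨b, hb⟩ := Vale.P039.H788.step3 (cl := cl) hcl hφ (by
    intro g ψ hψ hne c hc
    obtain ⟨b₁, hb₁⟩ := support_cycle hc
    obtain ⟨m, hm, _⟩ := hu f g φ ψ hφ hψ (fun b => (hne b).symm) c.support b₁ hb₁
    exact ⟨m + 1, by rw [hm]; ring⟩) hsum hK
  have n1 : ∀ i : Fin 3, i + 1 ≠ i := by decide
  have n2 : ∀ i : Fin 3, i + 2 ≠ i := by decide
  by_cases h1 : ∃ v ∈ K, F b (f b + 1) = some v
  · refine ⟨b, f b + 1, f b + 2, n1 _, n2 _, h1, ?_⟩
    intro v hv h2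
    exact hb ⟨fun _ => ⟨v, hv, h2⟩, fun _ => h1⟩
  · by_cases h2 : ∃ v ∈ K, F b (f b + 2) = some v
    · refine ⟨b, f b + 2, f b + 1, n2 _, n1 _, h2, ?_⟩
      intro v hv h3
      exact h1 ⟨v, hv, h3⟩
    · exact absurd ⟨fun h => absurd h h1, fun h => absurd h h2⟩ hb

end Vale.Agent.P039.H746
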